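import Mathlib

open Matrix Real
open scoped ContDiff

namespace Vale.Agent.P231.Ode

/-- The matrix Jacobi equation `X'' + R X = 0` along a geodesic (`R t` is the symmetric curvature
operator at time `t` in a parallel orthonormal frame of the normal space, of dimension `N`),
together with its two fundamental solutions `C` (with `C 0 = 1`, `C' 0 = 0`) and `S` (with
`S 0 = 0`, `S' 0 = 1`); `C1` and `S1` are the derivatives of `C` and `S`. All derivatives are
taken entrywise. -/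
structure JSys (N : ℕ) where
  R : ℝ → Matrix (Fin N) (Fin N) ℝ
  C : ℝ → Matrix (Fin N) (Fin N) ℝ
  C1 : ℝ → Matrix (Fin N) (Fin N) ℝ
  S : ℝ → Matrix (Fin N) (Fin N) ℝ
  S1 : ℝ → Matrix (Fin N) (Fin N) ℝ
  symR : ∀ t, (R t)ᵀ = R t
  smoothR : ∀ i j, ContDiff ℝ ∞ fun t => R t i j
  dC : ∀ t i j, HasDerivAt (fun x => C x i j) (C1 t i j) t
  dC1 : ∀ t i j, HasDerivAt (fun x => C1 x i j) ((-(R t * C t)) i j) t
  dS : ∀ t i j, HasDerivAt (fun x => S x i j) (S1 t i j) t
  dS1 : ∀ t i j, HasDerivAt (fun x => S1 x i j) ((-(R t * S t)) i j) t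
  C_zero : C 0 = 1
  C1_zero : C1 0 = 0
  S_zero : S 0 = 0
  S1_zero : S1 0 = 1

/-- The Jacobi tensor: `t ↦ A s t` is the solution of the Jacobi equation with `A s s = 0`,
`∂ₜ A s s = 1`. -/
def JSys.A {N : ℕ} (X : JSys N) (s t : ℝ) : Matrix (Fin N) (Fin N) ℝ :=
  X.S t * (X.C s)ᵀ - X.C t * (X.S s)ᵀ

end Vale.Agent.P231.Ode
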